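import Vale.Agent.P116.AD.Spec

/-!
# P116, block [7]: rows 7-MSH and 7-LVL of `AD/Spec.lean`
-/

open Set Filter Topology Metric

namespace Vale.Agent.P116.AD

open H906
open KB720 (cell un clo chi bdc Tk Flat isCompact_un)
open KB.H984 (hitc two bad)

/-- two disjoint compact sets are far from each other in small scales -/
lemma evt_sep {A B : Set ℂ} (hA : IsCompact A) (hB : IsClosed B) (h : Disjoint A B) :
    ∀ᶠ d in 𝓝[>] (0 : ℝ), ∀ x ∈ A, ∀ y ∈ B, 40 * d < dist x y := by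
  obtain ⟨δ, hδ, hdis⟩ := h.exists_cthickenings hA hB
  have h1 : ∀ᶠ d in 𝓝[>] (0 : ℝ), d < δ / 40 :=
    mem_nhdsWithin_of_mem_nhds (Iio_mem_nhds (by positivity))
  filter_upwards [h1] with d hd x hx y hy
  by_contra hc
  have h2 : dist x y ≤ δ := by linarith
  have h3 : y ∈ cthickening δ A := mem_cthickening_of_dist_le y x δ A hx (by rwa [dist_comm])
  exact disjoint_left.1 hdis h3 (self_subset_cthickening B hy)

/-- a compact set in an open set: the thickenings of small scales are in the open set -/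
lemma evt_in {A U : Set ℂ} (hA : IsCompact A) (hU : IsOpen U) (h : A ⊆ U) :
    ∀ᶠ d in 𝓝[>] (0 : ℝ), cthickening (20 * d) A ⊆ U := by
  obtain ⟨δ, hδ, hsub⟩ := hA.exists_cthickening_subset_open hU h
  have h1 : ∀ᶠ d in 𝓝[>] (0 : ℝ), d < δ / 20 :=
    mem_nhdsWithin_of_mem_nhds (Iio_mem_nhds (by positivity))
  filter_upwards [h1] with d hd
  exact (cthickening_mono (by linarith) A).trans hsub

/-- uniform continuity off the nodes -/
lemma evt_mod {K R O : Set ℂ} {f : ℂ → ℝ} (hR : IsCompact R) (hO : IsOpen O) {δ : ℝ}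
    (hRK : cthickening δ R \ O ⊆ Kᶜ) (hδ : 0 < δ) (hf : ContinuousOn f Kᶜ) {ρ : ℝ} (hρ : 0 < ρ) :
    ∀ᶠ d in 𝓝[>] (0 : ℝ), ∀ z ∈ cthickening (20 * d) R \ O, ∀ z' ∈ cthickening (20 * d) R \ O,
      dist z z' ≤ 20 * d → |f z - f z'| ≤ ρ := by
  have hA : IsCompact (cthickening δ R \ O) := by
    have h1 : IsCompact (cthickening δ R) := hR.cthickening
    exact h1.of_isClosed_subset (isClosed_cthickening.sdiff hO) sdiff_subset
  have h2 := hA.uniformContinuousOn_of_continuous (hf.mono hRK)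
  rw [Metric.uniformContinuousOn_iff] at h2
  obtain ⟨η, hη, h3⟩ := h2 ρ hρ
  have h1 : ∀ᶠ d in 𝓝[>] (0 : ℝ), d < min δ η / 20 :=
    mem_nhdsWithin_of_mem_nhds (Iio_mem_nhds (by positivity))
  filter_upwards [h1] with d hd z hz z' hz' hzz
  have h4 : 20 * d < δ := by linarith [min_le_left δ η]
  have h5 : 20 * d < η := by linarith [min_le_right δ η]
  have h6 : cthickening (20 * d) R ⊆ cthickening δ R := cthickening_mono h4.le R
  have h7 := h3 z ⟨h6 hz.1, hz.2⟩ z' ⟨h6 hz'.1, hz'.2⟩ (lt_of_le_of_lt hzz h5)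
  rw [Real.dist_eq] at h7
  exact h7.le

/-- **row 7-MSH** -/
theorem rowMsh : RowMsh := by
  intro ι _ K w u d₀ D h s QQ MM lo hi ρ hK hf hw hfr hd₀ hh hρ hρh hMQ hu hKD hDw hQn hQD hdis
    hcov hval hgood
  have hQc : ∀ Q ∈ QQ, IsCompact Q ∧ IsConnected Q ∧ Disjoint (frontier Q) K := by
    intro Q hQ
    obtain ⟨z, hz, n, rfl⟩ := hQn Q hQ
    exact ⟨isCompact_nd hK n z, ⟨⟨z, mem_nd hz.1 n⟩, isPreconnected_nd n z⟩,
      frontier_nd_disjoint n z⟩
  have hcov' : K ∩ w ⊆ ⋃ Q ∈ QQ, interior Q := by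
    intro x hx
    obtain ⟨Q, hQ, hxQ⟩ := mem_iUnion₂.1 (hcov hx)
    refine mem_iUnion₂.2 ⟨Q, hQ, ?_⟩
    by_contra hni
    exact disjoint_left.1 (hQc Q hQ).2.2 ⟨subset_closure hxQ, hni⟩ hx.1
  have hun : IsCompact (un d₀ D) := isCompact_un d₀ D
  have hO : IsOpen (⋃ Q ∈ QQ, interior Q) := isOpen_biUnion fun Q _ => isOpen_interior
  obtain ⟨δ, hδ, hδw⟩ := hun.exists_cthickening_subset_open isOpen_interior hDw
  have hoff : cthickening δ (un d₀ D) \ (⋃ Q ∈ QQ, interior Q) ⊆ Kᶜ := by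
    rintro z ⟨hz1, hz2⟩ hzK
    exact hz2 (hcov' ⟨hzK, interior_subset (hδw hz1)⟩)
  have e1 : ∀ᶠ d in 𝓝[>] (0 : ℝ), ∀ Q ∈ QQ, ∀ Q' ∈ QQ, Q ≠ Q' → ∀ x ∈ Q, ∀ y ∈ Q',
      40 * d < dist x y := by
    rw [Filter.eventually_all_finset]
    intro Q hQ
    rw [Filter.eventually_all_finset]
    intro Q' hQ'
    by_cases hne : Q = Q'
    · exact Eventually.of_forall fun d hc => absurd hne hc
    · filter_upwards [evt_sep (hQc Q hQ).1 (hQc Q' hQ').1.isClosed (hdis Q hQ Q' hQ' hne)] with d hd _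
      exact hd
  have e2 : ∀ᶠ d in 𝓝[>] (0 : ℝ), ∀ Q ∈ QQ, cthickening (20 * d) Q ⊆ un d₀ D := by
    rw [Filter.eventually_all_finset]
    intro Q hQ
    filter_upwards [evt_in (hQc Q hQ).1 isOpen_interior (hQD Q hQ)] with d hd
    exact hd.trans interior_subset
  have e3 : ∀ᶠ d in 𝓝[>] (0 : ℝ), cthickening (20 * d) (un d₀ D) ⊆ w := by
    filter_upwards [evt_in hun isOpen_interior hDw] with d hd
    exact hd.trans interior_subset
  have e4 : ∀ᶠ d in 𝓝[>] (0 : ℝ), ∀ i, ∀ z ∈ Ar d d₀ D QQ, ∀ z' ∈ Ar d d₀ D QQ,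
      dist z z' ≤ 20 * d → |u i z - u i z'| ≤ ρ := by
    rw [Filter.eventually_all]
    intro i
    exact evt_mod hun hO hoff hδ (hu i) hρ
  have hlim : Tendsto (fun k : ℕ => d₀ / 2 ^ k) atTop (𝓝[>] (0 : ℝ)) := by
    refine tendsto_nhdsWithin_iff.2 ⟨tendsto_const_nhds.div_atTop
      (tendsto_pow_atTop_atTop_of_one_lt one_lt_two), Eventually.of_forall fun k => ?_⟩
    have : 0 < d₀ / 2 ^ k := by positivity
    exact this
  filter_upwards [hlim.eventually e1, hlim.eventually e2, hlim.eventually e3, hlim.eventually e4]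
    with k h1 h2 h3 h4
  exact
    { hd := by positivity
      hh := hh
      hρ := hρ
      hρh := hρh
      MQ := hMQ
      Qc := hQc
      cov := hcov'
      sep := h1
      inR := h2
      inW := h3
      val := hval
      mod := h4
      good := hgood
      dyad := ⟨k, rfl⟩ }

/-- **row 7-LVL** -/
theorem rowLvl : RowLvl := by
  intro K w O hK hf hw hfr hO hsub
  have hc : IsCompact (K ∩ w) := hK.inter hw
  have key : ∃ N, ∀ n ≥ N, ∀ z ∈ K ∩ w, z ∈ K → nd K n z ⊆ O := by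
    refine hc.induction_on (p := fun A => ∃ N, ∀ n ≥ N, ∀ z ∈ A, z ∈ K → nd K n z ⊆ O)
      ⟨0, by simp⟩ ?_ ?_ ?_
    · rintro A B hAB ⟨N, hN⟩
      exact ⟨N, fun n hn z hz => hN n hn z (hAB hz)⟩
    · rintro A B ⟨N, hN⟩ ⟨M, hM⟩
      refine ⟨max N M, fun n hn z hz hzK => ?_⟩
      rcases hz with hz | hz
      · exact hN n ((le_max_left _ _).trans hn) z hz hzK
      · exact hM n ((le_max_right _ _).trans hn) z hz hzK
    · intro x hx
      have hcw : connectedComponentIn K x ⊆ w := by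
        refine subset_of_frontier_disjoint isPreconnected_connectedComponentIn
          ⟨x, mem_connectedComponentIn hx.1, hx.2⟩ ?_
        exact (hfr.mono_right (connectedComponentIn_subset K x)).symm
      obtain ⟨n, hn⟩ := exists_nd_subset hK hf hx.1 hO
        ((subset_inter (connectedComponentIn_subset K x) hcw).trans hsub)
      refine ⟨ball x (lr n), mem_nhdsWithin_of_mem_nhds (ball_mem_nhds x (lr_pos n)), n, ?_⟩
      intro m hm y hy hyK
      have h1 : y ∈ nd K n x := closedBall_subset_nd hx.1 (mem_nd hx.1 n) (ball_subset_closedBall hy)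
      exact ((nd_anti hm).trans (nd_eq h1).subset).trans hn
  obtain ⟨N, hN⟩ := key
  exact ⟨N, fun n hn z hz => hN n hn z hz hz.1⟩

end Vale.Agent.P116.AD
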