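import Vale.Agent.P116.AD.Spec
import Vale.Agent.P116.Cl.H805.Bridge

/-!
# P116, block [7]: from the mesh data and the labels to the bridge structure
-/

open Set Filter Topology Metric

namespace Vale.Agent.P116.AD

open H906
open KB720 (cell un clo chi bdc Tk Flat)
open KB.H984 (hitc two bad)
open Vale.Agent.P116.Star (pt St Rl Tch Ins)

lemma Tch_sub_Nb (d : ℝ) (Q : Set ℂ) : Tch d Q ⊆ Nb d Q :=
  fun _ ⟨z, hz, hzQ⟩ => ⟨z, hz, self_subset_cthickening Q hzQ⟩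

/-- the vertices near a node have one label, which is not `none` -/
lemma lab_node (hL : RowLab) {ι : Type} [Fintype ι] {K w : Set ℂ} {u : ι → ℂ → ℝ} {d₀ : ℝ}
    {D : Finset (ℤ × ℤ)} {h : ℝ} {s : ι → ℝ} {QQ MM : Finset (Set ℂ)} {lo hi : ι → Set ℂ → ℝ}
    {ρ d : ℝ} (hw : IsCompact w) (hf : Full w) (hm : Msh K w u d₀ D h s QQ MM lo hi ρ d)
    {Q : Set ℂ} (hQ : Q ∈ QQ) :
    ∃ l, l ≠ none ∧ ∀ v ∈ Nb d Q, lab u d₀ D h s QQ MM lo ρ d v = l := by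
  obtain ⟨-, -, l3, -, l5, -⟩ := hL ι K w u d₀ D h s QQ MM lo hi ρ d hw hf hm
  by_cases hM : Q ∈ MM
  · refine ⟨some (Sum.inl Q), by simp, fun v hv => ?_⟩
    have h1 := l3 Q hM
    have h2 : v ∈ {v | lab u d₀ D h s QQ MM lo ρ d v = some (Sum.inl Q)} := by
      rw [h1]
      exact hv
    exact h2
  · exact ⟨_, by simp, l5 Q hQ hM⟩

/-- **the bridge structure** -/
theorem brg_of_msh (hL : RowLab) {ι : Type} [Fintype ι] {K w : Set ℂ} {u : ι → ℂ → ℝ} {d₀ : ℝ}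
    {D : Finset (ℤ × ℤ)} {h : ℝ} {s : ι → ℝ} {QQ MM : Finset (Set ℂ)} {lo hi : ι → Set ℂ → ℝ}
    {ρ d : ℝ} (hw : IsCompact w) (hf : Full w) (hQn : ∀ Q ∈ QQ, Q.Nontrivial)
    (hm : Msh K w u d₀ D h s QQ MM lo hi ρ d)
    {M : Finset (Set ℂ ⊕ Set H730.Pt)} {B : Set ℂ ⊕ Set H730.Pt → Set H730.Pt}
    (h1 : ∀ k ∈ M, (B k).Nonempty ∧ H730.Cn (B k) ∧
      ∀ v ∈ B k, lab u d₀ D h s QQ MM lo ρ d v ≠ none)
    (h2 : ∀ k ∈ M, ∀ k' ∈ M, k ≠ k' →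
      Disjoint (H730.fl (Ins d w) (B k)) (H730.fl (Ins d w) (B k')))
    (h3 : ∀ v, lab u d₀ D h s QQ MM lo ρ d v ≠ none →
      ∃ k ∈ M, v ∈ H730.fl (Ins d w) (B k))
    (h6 : ∀ k, ∀ v ∈ B k, ∀ w, H730.Cl v w →
      lab u d₀ D h s QQ MM lo ρ d v = lab u d₀ D h s QQ MM lo ρ d w → w ∈ B k) :
    Star.Brg d K w (lab u d₀ D h s QQ MM lo ρ d) (QQ : Set (Set ℂ)) M B := by
  obtain ⟨-, l2, -⟩ := hL ι K w u d₀ D h s QQ MM lo hi ρ d hw hf hm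
  exact
    { hd := hm.hd
      wc := hw
      wf := hf
      ins := l2
      cov := by
        intro x hx
        obtain ⟨Q, hQ, hxQ⟩ := mem_iUnion₂.1 (hm.cov hx)
        exact mem_iUnion₂.2 ⟨Q, hQ, hxQ⟩
      Qc := fun Q hQ => (hm.Qc Q hQ).2.1.isPreconnected
      Qn := fun Q hQ => hQn Q hQ
      Ql := fun Q hQ => by
        obtain ⟨l, -, hl⟩ := lab_node hL hw hf hm (Finset.mem_coe.1 hQ)
        exact ⟨l, fun v hv => hl v (Tch_sub_Nb d Q hv)⟩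
      Qs := fun Q hQ v hv => by
        obtain ⟨l, hl0, hl⟩ := lab_node hL hw hf hm (Finset.mem_coe.1 hQ)
        rw [hl v (Tch_sub_Nb d Q hv)]
        exact hl0
      h1 := h1
      h2 := h2
      h3 := h3
      h6 := h6 }

open Classical in
/-- **labels + absorb**: the classes of the labels of one mesh -/
theorem absorb_lab (hL : RowLab) {ι : Type} [Fintype ι] {K w : Set ℂ} {u : ι → ℂ → ℝ} {d₀ : ℝ}
    {D : Finset (ℤ × ℤ)} {h : ℝ} {s : ι → ℝ} {QQ MM : Finset (Set ℂ)} {lo hi : ι → Set ℂ → ℝ}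
    {ρ d : ℝ} (hw : IsCompact w) (hf : Full w) (hQn : ∀ Q ∈ QQ, Q.Nontrivial)
    (hm : Msh K w u d₀ D h s QQ MM lo hi ρ d) (reps T : Finset H730.Pt)
    (hreps : ∀ v, pt d v ∈ un d₀ D → ∃ r ∈ reps, H730.RC {v | pt d v ∈ un d₀ D} v r)
    (hT : ∀ b, H730.TL (lab u d₀ D h s QQ MM lo ρ d) b → b ∈ T) :
    ∃ (M : Finset (Set ℂ ⊕ Set H730.Pt)) (B : Set ℂ ⊕ Set H730.Pt → Set H730.Pt),
      Star.Brg d K w (lab u d₀ D h s QQ MM lo ρ d) (QQ : Set (Set ℂ)) M B ∧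
      (∀ Q, Sum.inl Q ∈ M → Q ∈ MM ∧ ∀ v ∈ B (Sum.inl Q),
        lab u d₀ D h s QQ MM lo ρ d v = some (Sum.inl Q) ∨
        ∃ c x y, lab u d₀ D h s QQ MM lo ρ d v = some (Sum.inr c) ∧
          lab u d₀ D h s QQ MM lo ρ d x = some (Sum.inr c) ∧
          lab u d₀ D h s QQ MM lo ρ d y = some (Sum.inl Q) ∧ H730.Cl x y ∧ x ∈ B (Sum.inl Q)) ∧
      (∀ S, Sum.inr S ∈ M → ∃ c, ∀ v ∈ B (Sum.inr S),
        lab u d₀ D h s QQ MM lo ρ d v = some (Sum.inr c)) ∧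
      (M.filter (fun k => ∃ S, k = Sum.inr S)).card ≤ reps.card + T.card := by
  obtain ⟨l1, l2, l3, l4, l5, l6, l7, l8, l9⟩ := hL ι K w u d₀ D h s QQ MM lo hi ρ d hw hf hm
  have hset : {v | lab u d₀ D h s QQ MM lo ρ d v ≠ none} = {v | pt d v ∈ un d₀ D} := by
    ext v
    exact l1 v
  obtain ⟨M, B, a1, a2, a3, a4, a5, a6, a7⟩ := H730.absorb (lab := lab u d₀ D h s QQ MM lo ρ d)
    l8 l9 l2 (by
      intro Q
      by_cases hQ : Q ∈ MM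
      · have := l3 Q hQ
        rw [this]
        exact l7 Q (hm.MQ hQ)
      · have := l4 Q hQ
        rw [this]
        intro a ha
        exact absurd ha (notMem_empty a)) reps T (by
      intro v hv
      rw [hset]
      exact hreps v ((l1 v).1 hv)) hT
  refine ⟨M, B, brg_of_msh hL hw hf hQn hm a1 a2 a3 a6, ?_, a5, a7⟩
  intro Q hQ
  obtain ⟨⟨y, hy⟩, -, b3⟩ := a4 Q hQ
  refine ⟨?_, b3⟩
  by_contra hQM
  have h1 := l4 Q hQM
  have h2 : y ∈ {v | lab u d₀ D h s QQ MM lo ρ d v = some (Sum.inl Q)} := hy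
  rw [h1] at h2
  exact h2

end Vale.Agent.P116.AD
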